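import Mathlib
import Vale.Agent.Lib.P036.Cup
import Vale.Agent.Lib.P036.MonoChain
import Vale.Agent.Lib.P036.H65.Defs
import Vale.Agent.Lib.P036.H65.ConvexCover
import Vale.Agent.Lib.P036.H65.Path

namespace Vale.Agent.Results.P036.ClassOmnibus

open Vale.Agent.Lib.P036.H65

/-- Heilbronn's triangle problem on special classes of point sets (one statement).

(1) `n ≥ 3` points of the unit square on the graph of one function convex on `[0,1]` contain a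
triangle of area at most `32 / (3 (n-2)^3)`.

(2) `n ≥ 4` points of the unit square in convex position (no point in the convex hull of the
others) contain a triangle of area at most `72 / (n - 2) ^ 3`.

(3) `n` points of the unit square covered by `k` sets in convex position, `n > 3 k`, contain a
triangle of area at most `72 k ^ 3 / (n - 2 k) ^ 3`.

(4) For every `N ≥ 1` there are `N + 1` points of the unit square in convex position all of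
whose triangles have area at least `1 / N ^ 3`.

(5) A finite set in the unit square containing a monotone chain `C` of `m ≥ 3` points (the two
coordinates are ordered the same way on all of `C`, or oppositely on all of `C`) contains a
triangle of area at most `2 / (m - 2)^2`.

(6) `n ≥ 4 k` points of the unit square covered by `k ≥ 1` monotone chains contain a triangle
of area at most `8 k^2 / n^2`.

(7) `n ≥ 3` points of the plane, listed without repetition as `p 0, …, p (n - 1)`, such that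
the polygonal path through them in this order has Euclidean length at most `ℓ`, contain a
triangle of area at most `ℓ ^ 2 / (2 (n - 2) ^ 2)`. -/
theorem result :
    (∀ (P : Finset (ℝ × ℝ)) (φ : ℝ → ℝ), ConvexOn ℝ (Set.Icc 0 1) φ →
      (∀ p ∈ P, p.1 ∈ Set.Icc (0 : ℝ) 1 ∧ p.2 ∈ Set.Icc (0 : ℝ) 1 ∧ p.2 = φ p.1) →
      3 ≤ P.card →
      ∃ p ∈ P, ∃ q ∈ P, ∃ r ∈ P, p ≠ q ∧ q ≠ r ∧ p ≠ r ∧
        |(q.1 - p.1) * (r.2 - p.2) - (q.2 - p.2) * (r.1 - p.1)| / 2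
          ≤ 32 / (3 * ((P.card : ℝ) - 2) ^ 3)) ∧
    (∀ P : Finset (ℝ × ℝ), (∀ p ∈ P, 0 ≤ p.1 ∧ p.1 ≤ 1 ∧ 0 ≤ p.2 ∧ p.2 ≤ 1) →
      (∀ p ∈ P, p ∉ convexHull ℝ ((P.erase p : Finset (ℝ × ℝ)) : Set (ℝ × ℝ))) →
      4 ≤ P.card →
      ∃ a ∈ P, ∃ b ∈ P, ∃ c ∈ P, a ≠ b ∧ b ≠ c ∧ a ≠ c ∧
        triArea a b c * ((P.card : ℝ) - 2) ^ 3 ≤ 72) ∧
    (∀ (P : Finset (ℝ × ℝ)) (k : ℕ) (C : Fin k → Finset (ℝ × ℝ)),
      (∀ p ∈ P, 0 ≤ p.1 ∧ p.1 ≤ 1 ∧ 0 ≤ p.2 ∧ p.2 ≤ 1) → (∀ p ∈ P, ∃ j, p ∈ C j) →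
      (∀ j, ∀ p ∈ C j,
        p ∉ convexHull ℝ (((C j).erase p : Finset (ℝ × ℝ)) : Set (ℝ × ℝ))) →
      3 * k < P.card →
      ∃ a ∈ P, ∃ b ∈ P, ∃ c ∈ P, a ≠ b ∧ b ≠ c ∧ a ≠ c ∧
        triArea a b c * ((P.card : ℝ) - 2 * k) ^ 3 ≤ 72 * (k : ℝ) ^ 3) ∧
    (∀ N : ℕ, 1 ≤ N → ∃ P : Finset (ℝ × ℝ), P.card = N + 1 ∧
      (∀ p ∈ P, 0 ≤ p.1 ∧ p.1 ≤ 1 ∧ 0 ≤ p.2 ∧ p.2 ≤ 1) ∧
      (∀ p ∈ P, p ∉ convexHull ℝ ((P.erase p : Finset (ℝ × ℝ)) : Set (ℝ × ℝ))) ∧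
      ∀ a ∈ P, ∀ b ∈ P, ∀ c ∈ P, a ≠ b → b ≠ c → a ≠ c →
        1 ≤ triArea a b c * (N : ℝ) ^ 3) ∧
    (∀ (P C : Finset (ℝ × ℝ)), (∀ p ∈ P, 0 ≤ p.1 ∧ p.1 ≤ 1 ∧ 0 ≤ p.2 ∧ p.2 ≤ 1) → C ⊆ P →
      ((∀ p ∈ C, ∀ q ∈ C, 0 ≤ (p.1 - q.1) * (p.2 - q.2)) ∨
        (∀ p ∈ C, ∀ q ∈ C, (p.1 - q.1) * (p.2 - q.2) ≤ 0)) →
      3 ≤ C.card →
      ∃ p ∈ P, ∃ q ∈ P, ∃ r ∈ P, p ≠ q ∧ p ≠ r ∧ q ≠ r ∧
        (1 / 2) * |(q.1 - p.1) * (r.2 - p.2) - (q.2 - p.2) * (r.1 - p.1)| ≤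
          2 / ((C.card : ℝ) - 2) ^ 2) ∧
    (∀ (k : ℕ) (P : Finset (ℝ × ℝ)) (C : Fin k → Finset (ℝ × ℝ)),
      (∀ p ∈ P, 0 ≤ p.1 ∧ p.1 ≤ 1 ∧ 0 ≤ p.2 ∧ p.2 ≤ 1) →
      (∀ p ∈ P, ∃ j, p ∈ C j) →
      (∀ j, (∀ p ∈ C j, ∀ q ∈ C j, 0 ≤ (p.1 - q.1) * (p.2 - q.2)) ∨
        (∀ p ∈ C j, ∀ q ∈ C j, (p.1 - q.1) * (p.2 - q.2) ≤ 0)) →
      1 ≤ k → 4 * k ≤ P.card →
      ∃ p ∈ P, ∃ q ∈ P, ∃ r ∈ P, p ≠ q ∧ p ≠ r ∧ q ≠ r ∧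
        (1 / 2) * |(q.1 - p.1) * (r.2 - p.2) - (q.2 - p.2) * (r.1 - p.1)| ≤
          8 * (k : ℝ) ^ 2 / (P.card : ℝ) ^ 2) ∧
    (∀ (P : Finset (ℝ × ℝ)) (n : ℕ), 3 ≤ n → P.card = n →
      ∀ p : ℕ → ℝ × ℝ, P = (Finset.range n).image p → ∀ ℓ : ℝ,
      ∑ i ∈ Finset.range (n - 1), eDist (p i) (p (i + 1)) ≤ ℓ →
      ∃ a ∈ P, ∃ b ∈ P, ∃ c ∈ P, a ≠ b ∧ b ≠ c ∧ a ≠ c ∧
        triArea a b c * (2 * ((n : ℝ) - 2) ^ 2) ≤ ℓ ^ 2) :=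
  ⟨fun P φ hφ hP hn => Vale.Agent.Lib.P036.convex_curve P φ hφ hP hn,
    fun P hsq hconv h4 => convex_position_upper P hsq hconv h4,
    fun P k C hsq hcov hconv hk => convex_cover_upper P hsq k C hcov hconv hk,
    fun N hN => ⟨parabolaSet N, parabola_example N hN⟩,
    Vale.Agent.Lib.P036.MonoChain.monotone_chain.1,
    Vale.Agent.Lib.P036.MonoChain.monotone_chain.2,
    fun P n hn hcard p hP ℓ hlen => path_set P n hn hcard p hP ℓ hlen⟩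

end Vale.Agent.Results.P036.ClassOmnibus
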