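import Mathlib
import Vale.Agent.Lib.P036.H65.Defs
import Vale.Agent.Lib.P036.H65.ConvexCover

namespace Vale.Agent.Results.P036.ConvexPosition

open Vale.Agent.Lib.P036.H65

/-- Heilbronn's triangle problem for point sets in convex position.

(1) Every set of `n ≥ 4` points of the unit square in convex position (no point in the convex
hull of the others) contains a triangle of area at most `72 / (n - 2) ^ 3`.

(2) A set of `n` points of the unit square covered by `k` sets in convex position, `n > 3 k`,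
contains a triangle of area at most `72 k ^ 3 / (n - 2 k) ^ 3`.

(3) For every `N ≥ 1` there are `N + 1` points of the unit square in convex position all of
whose triangles have area at least `1 / N ^ 3`. -/
theorem result :
    (∀ P : Finset (ℝ × ℝ), (∀ p ∈ P, 0 ≤ p.1 ∧ p.1 ≤ 1 ∧ 0 ≤ p.2 ∧ p.2 ≤ 1) →
      (∀ p ∈ P, p ∉ convexHull ℝ ((P.erase p : Finset (ℝ × ℝ)) : Set (ℝ × ℝ))) →
      4 ≤ P.card →
      ∃ a ∈ P, ∃ b ∈ P, ∃ c ∈ P, a ≠ b ∧ b ≠ c ∧ a ≠ c ∧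
        triArea a b c * ((P.card : ℝ) - 2) ^ 3 ≤ 72) ∧
    (∀ (P : Finset (ℝ × ℝ)) (k : ℕ) (C : Fin k → Finset (ℝ × ℝ)),
      (∀ p ∈ P, 0 ≤ p.1 ∧ p.1 ≤ 1 ∧ 0 ≤ p.2 ∧ p.2 ≤ 1) → (∀ p ∈ P, ∃ j, p ∈ C j) →
      (∀ j, ∀ p ∈ C j,
        p ∉ convexHull ℝ (((C j).erase p : Finset (ℝ × ℝ)) : Set (ℝ × ℝ))) →
      3 * k < P.card →
      ∃ a ∈ P, ∃ b ∈ P, ∃ c ∈ P, a ≠ b ∧ b ≠ c ∧ a ≠ c ∧
        triArea a b c * ((P.card : ℝ) - 2 * k) ^ 3 ≤ 72 * (k : ℝ) ^ 3) ∧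
    (∀ N : ℕ, 1 ≤ N → ∃ P : Finset (ℝ × ℝ), P.card = N + 1 ∧
      (∀ p ∈ P, 0 ≤ p.1 ∧ p.1 ≤ 1 ∧ 0 ≤ p.2 ∧ p.2 ≤ 1) ∧
      (∀ p ∈ P, p ∉ convexHull ℝ ((P.erase p : Finset (ℝ × ℝ)) : Set (ℝ × ℝ))) ∧
      ∀ a ∈ P, ∀ b ∈ P, ∀ c ∈ P, a ≠ b → b ≠ c → a ≠ c →
        1 ≤ triArea a b c * (N : ℝ) ^ 3) :=
  ⟨fun P hsq hconv h4 => convex_position_upper P hsq hconv h4,
    fun P k C hsq hcov hconv hk => convex_cover_upper P hsq k C hcov hconv hk,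
    fun N hN => ⟨parabolaSet N, parabola_example N hN⟩⟩

end Vale.Agent.Results.P036.ConvexPosition
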