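import Mathlib

namespace Vale.Agent.Results.P036.MonotoneChain

open Finset

/-- Telescoping of a sum of second differences. -/
theorem sum_second_diff (u : ℕ → ℝ) (N : ℕ) :
    ∑ i ∈ range N, (u (i + 2) - u i) = u (N + 1) + u N - u 1 - u 0 := by
  induction N with
  | zero => simp
  | succ N ih =>
    rw [Finset.sum_range_succ, ih]
    ring

/-- Core estimate: along a sequence of points whose two coordinates are both weakly increasing
and have total increase at most `1`, some three consecutive points span a small triangle. -/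
theorem core (X Y : ℕ → ℝ) (hX : Monotone X) (hY : Monotone Y) (N : ℕ) (hN : 0 < N)
    (hx : X (N + 1) - X 0 ≤ 1) (hy : Y (N + 1) - Y 0 ≤ 1) :
    ∃ i < N, |(X (i + 1) - X i) * (Y (i + 2) - Y i) - (Y (i + 1) - Y i) * (X (i + 2) - X i)| ≤
      4 / (N : ℝ) ^ 2 := by
  have hNpos : (0 : ℝ) < N := by exact_mod_cast hN
  have hsum : ∑ i ∈ range N, ((X (i + 2) - X i) + (Y (i + 2) - Y i)) ≤
      ∑ i ∈ range N, (4 / (N : ℝ)) := by
    rw [Finset.sum_add_distrib, sum_second_diff, sum_second_diff, Finset.sum_const,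
      Finset.card_range, nsmul_eq_mul, mul_div_cancel₀ _ hNpos.ne']
    have h1 : X N ≤ X (N + 1) := hX (Nat.le_succ N)
    have h2 : X 0 ≤ X 1 := hX (Nat.zero_le 1)
    have h3 : Y N ≤ Y (N + 1) := hY (Nat.le_succ N)
    have h4 : Y 0 ≤ Y 1 := hY (Nat.zero_le 1)
    linarith
  obtain ⟨i, hi, hle⟩ := Finset.exists_le_of_sum_le ⟨0, Finset.mem_range.mpr hN⟩ hsum
  refine ⟨i, Finset.mem_range.mp hi, ?_⟩
  have ha : 0 ≤ X (i + 1) - X i := sub_nonneg.mpr (hX (Nat.le_succ i))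
  have hb : 0 ≤ X (i + 2) - X (i + 1) := sub_nonneg.mpr (hX (Nat.le_succ (i + 1)))
  have hd : 0 ≤ Y (i + 1) - Y i := sub_nonneg.mpr (hY (Nat.le_succ i))
  have hd' : 0 ≤ Y (i + 2) - Y (i + 1) := sub_nonneg.mpr (hY (Nat.le_succ (i + 1)))
  obtain ⟨a, hadef⟩ : ∃ a, a = X (i + 1) - X i := ⟨_, rfl⟩
  obtain ⟨b, hbdef⟩ : ∃ b, b = X (i + 2) - X (i + 1) := ⟨_, rfl⟩
  obtain ⟨d, hddef⟩ : ∃ d, d = Y (i + 1) - Y i := ⟨_, rfl⟩
  obtain ⟨e, hedef⟩ : ∃ e, e = Y (i + 2) - Y (i + 1) := ⟨_, rfl⟩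
  rw [← hadef] at ha
  rw [← hbdef] at hb
  rw [← hddef] at hd
  rw [← hedef] at hd'
  have e1 : X (i + 2) - X i = a + b := by rw [hadef, hbdef]; ring
  have e2 : Y (i + 2) - Y i = d + e := by rw [hddef, hedef]; ring
  rw [e1, e2] at hle
  rw [← hadef, ← hddef, e1, e2]
  have hs : a + b + d + e ≤ 4 / (N : ℝ) := by linarith
  have hs0 : 0 ≤ a + b + d + e := by linarith
  have hq : (a + b + d + e) ^ 2 ≤ (4 / (N : ℝ)) ^ 2 := pow_le_pow_left₀ hs0 hs 2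
  have hq' : (4 / (N : ℝ)) ^ 2 = 4 * (4 / (N : ℝ) ^ 2) := by
    field_simp
  rw [abs_le]
  constructor
  · nlinarith [sq_nonneg (b - d), mul_nonneg ha hd', mul_nonneg hb hd, mul_nonneg ha hb,
      mul_nonneg ha hd, mul_nonneg hb hd', mul_nonneg hd hd', sq_nonneg (a + e),
      sq_nonneg (b + d)]
  · nlinarith [sq_nonneg (a - e), mul_nonneg ha hd', mul_nonneg hb hd, mul_nonneg ha hb,
      mul_nonneg ha hd, mul_nonneg hb hd', mul_nonneg hd hd', sq_nonneg (a + e),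
      sq_nonneg (b + d)]

/-- A finite chain that is increasing in both coordinates can be listed in increasing order. -/
theorem exists_sorted (C : Finset (ℝ × ℝ))
    (hinc : ∀ p ∈ C, ∀ q ∈ C, 0 ≤ (p.1 - q.1) * (p.2 - q.2)) :
    ∃ f : Fin C.card → ℝ × ℝ, (∀ i, f i ∈ C) ∧ Function.Injective f ∧
      (∀ i j, i ≤ j → (f i).1 ≤ (f j).1) ∧ (∀ i j, i ≤ j → (f i).2 ≤ (f j).2) := by
  classical
  have hcard : (C.map (toLex : ℝ × ℝ ≃ Lex (ℝ × ℝ)).toEmbedding).card = C.card :=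
    Finset.card_map _
  have hmem : ∀ i, ofLex ((C.map (toLex : ℝ × ℝ ≃ Lex (ℝ × ℝ)).toEmbedding).orderEmbOfFin
      hcard i) ∈ C := by
    intro i
    have h := Finset.orderEmbOfFin_mem (C.map (toLex : ℝ × ℝ ≃ Lex (ℝ × ℝ)).toEmbedding) hcard i
    rw [Finset.mem_map] at h
    obtain ⟨a, ha, hae⟩ := h
    rw [← hae]
    exact ha
  have hlt : ∀ i j, i < j →
      (ofLex ((C.map (toLex : ℝ × ℝ ≃ Lex (ℝ × ℝ)).toEmbedding).orderEmbOfFin hcard i)).1 <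
        (ofLex ((C.map (toLex : ℝ × ℝ ≃ Lex (ℝ × ℝ)).toEmbedding).orderEmbOfFin hcard j)).1 ∨
      (ofLex ((C.map (toLex : ℝ × ℝ ≃ Lex (ℝ × ℝ)).toEmbedding).orderEmbOfFin hcard i)).1 =
        (ofLex ((C.map (toLex : ℝ × ℝ ≃ Lex (ℝ × ℝ)).toEmbedding).orderEmbOfFin hcard j)).1 ∧
      (ofLex ((C.map (toLex : ℝ × ℝ ≃ Lex (ℝ × ℝ)).toEmbedding).orderEmbOfFin hcard i)).2 <
        (ofLex ((C.map (toLex : ℝ × ℝ ≃ Lex (ℝ × ℝ)).toEmbedding).orderEmbOfFin hcard j)).2 := by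
    intro i j hij
    have h := ((C.map (toLex : ℝ × ℝ ≃ Lex (ℝ × ℝ)).toEmbedding).orderEmbOfFin hcard).strictMono hij
    exact Prod.Lex.lt_iff.mp h
  refine ⟨fun i => ofLex ((C.map (toLex : ℝ × ℝ ≃ Lex (ℝ × ℝ)).toEmbedding).orderEmbOfFin
    hcard i), hmem, ?_, ?_, ?_⟩
  · intro i j hij
    have h1 : (C.map (toLex : ℝ × ℝ ≃ Lex (ℝ × ℝ)).toEmbedding).orderEmbOfFin hcard i =
        (C.map (toLex : ℝ × ℝ ≃ Lex (ℝ × ℝ)).toEmbedding).orderEmbOfFin hcard j :=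
      ofLex.injective hij
    exact ((C.map (toLex : ℝ × ℝ ≃ Lex (ℝ × ℝ)).toEmbedding).orderEmbOfFin hcard).injective h1
  · intro i j hij
    rcases hij.eq_or_lt with h | h
    · rw [h]
    · rcases hlt i j h with h' | h'
      · exact h'.le
      · exact h'.1.le
  · intro i j hij
    rcases hij.eq_or_lt with h | h
    · rw [h]
    · rcases hlt i j h with h' | h'
      · have hc := hinc _ (hmem i) _ (hmem j)
        by_contra hcon
        rw [not_le] at hcon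
        nlinarith
      · exact h'.2.le

/-- Chains increasing in both coordinates, of diameter at most `1` in each coordinate. -/
theorem incr_chain (C : Finset (ℝ × ℝ))
    (hinc : ∀ p ∈ C, ∀ q ∈ C, 0 ≤ (p.1 - q.1) * (p.2 - q.2))
    (hdx : ∀ p ∈ C, ∀ q ∈ C, p.1 - q.1 ≤ 1) (hdy : ∀ p ∈ C, ∀ q ∈ C, p.2 - q.2 ≤ 1)
    (hm : 3 ≤ C.card) :
    ∃ p ∈ C, ∃ q ∈ C, ∃ r ∈ C, p ≠ q ∧ p ≠ r ∧ q ≠ r ∧
      |(q.1 - p.1) * (r.2 - p.2) - (q.2 - p.2) * (r.1 - p.1)| ≤ 4 / ((C.card : ℝ) - 2) ^ 2 := by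
  obtain ⟨f, hfC, hfinj, hfx, hfy⟩ := exists_sorted C hinc
  have hpos : 0 < C.card := by omega
  -- clamped enumeration indexed by the natural numbers
  have hcl : ∀ i : ℕ, min i (C.card - 1) < C.card := fun i =>
    lt_of_le_of_lt (min_le_right _ _) (by omega)
  have hX : Monotone (fun i : ℕ => (f ⟨min i (C.card - 1), hcl i⟩).1) := by
    intro i j hij
    apply hfx
    rw [Fin.mk_le_mk]
    exact min_le_min_right _ hij
  have hY : Monotone (fun i : ℕ => (f ⟨min i (C.card - 1), hcl i⟩).2) := by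
    intro i j hij
    apply hfy
    rw [Fin.mk_le_mk]
    exact min_le_min_right _ hij
  have hN : 0 < C.card - 2 := by omega
  obtain ⟨i, hi, hle⟩ := core _ _ hX hY (C.card - 2) hN
    (hdx _ (hfC _) _ (hfC _)) (hdy _ (hfC _) _ (hfC _))
  have hcast : ((C.card - 2 : ℕ) : ℝ) = (C.card : ℝ) - 2 := by
    rw [Nat.cast_sub (by omega)]
    norm_num
  rw [hcast] at hle
  have hne : ∀ a b : ℕ, a < C.card → b < C.card → a ≠ b →
      f ⟨min a (C.card - 1), hcl a⟩ ≠ f ⟨min b (C.card - 1), hcl b⟩ := by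
    intro a b ha hb hab h
    have h1 := hfinj h
    rw [Fin.mk.injEq] at h1
    rw [min_eq_left (by omega), min_eq_left (by omega)] at h1
    exact hab h1
  refine ⟨_, hfC ⟨min i (C.card - 1), hcl i⟩, _, hfC ⟨min (i + 1) (C.card - 1), hcl (i + 1)⟩,
    _, hfC ⟨min (i + 2) (C.card - 1), hcl (i + 2)⟩, ?_, ?_, ?_, hle⟩
  · exact hne i (i + 1) (by omega) (by omega) (by omega)
  · exact hne i (i + 2) (by omega) (by omega) (by omega)
  · exact hne (i + 1) (i + 2) (by omega) (by omega) (by omega)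

/-- Chains that are increasing in the first and decreasing in the second coordinate. -/
theorem decr_chain (C : Finset (ℝ × ℝ))
    (hdec : ∀ p ∈ C, ∀ q ∈ C, (p.1 - q.1) * (p.2 - q.2) ≤ 0)
    (hdx : ∀ p ∈ C, ∀ q ∈ C, p.1 - q.1 ≤ 1) (hdy : ∀ p ∈ C, ∀ q ∈ C, p.2 - q.2 ≤ 1)
    (hm : 3 ≤ C.card) :
    ∃ p ∈ C, ∃ q ∈ C, ∃ r ∈ C, p ≠ q ∧ p ≠ r ∧ q ≠ r ∧
      |(q.1 - p.1) * (r.2 - p.2) - (q.2 - p.2) * (r.1 - p.1)| ≤ 4 / ((C.card : ℝ) - 2) ^ 2 := by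
  classical
  have hinj : Function.Injective (fun p : ℝ × ℝ => (p.1, -p.2)) := by
    intro p q h
    simp only [Prod.mk.injEq, neg_inj] at h
    exact Prod.ext h.1 h.2
  have hcard : (C.image (fun p : ℝ × ℝ => (p.1, -p.2))).card = C.card :=
    Finset.card_image_of_injective C hinj
  have h := incr_chain (C.image (fun p : ℝ × ℝ => (p.1, -p.2))) ?_ ?_ ?_ (by rw [hcard]; exact hm)
  · obtain ⟨p', hp', q', hq', r', hr', hpq, hpr, hqr, hle⟩ := h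
    rw [Finset.mem_image] at hp' hq' hr'
    obtain ⟨p, hp, rfl⟩ := hp'
    obtain ⟨q, hq, rfl⟩ := hq'
    obtain ⟨r, hr, rfl⟩ := hr'
    rw [hcard] at hle
    refine ⟨p, hp, q, hq, r, hr, fun h => hpq (by rw [h]), fun h => hpr (by rw [h]),
      fun h => hqr (by rw [h]), ?_⟩
    have hEq : (q.1 - p.1) * (r.2 - p.2) - (q.2 - p.2) * (r.1 - p.1) =
        -((q.1 - p.1) * (-r.2 - -p.2) - (-q.2 - -p.2) * (r.1 - p.1)) := by ring
    rw [hEq, abs_neg]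
    exact hle
  · intro p' hp' q' hq'
    rw [Finset.mem_image] at hp' hq'
    obtain ⟨p, hp, rfl⟩ := hp'
    obtain ⟨q, hq, rfl⟩ := hq'
    have := hdec p hp q hq
    show 0 ≤ (p.1 - q.1) * (-p.2 - -q.2)
    nlinarith
  · intro p' hp' q' hq'
    rw [Finset.mem_image] at hp' hq'
    obtain ⟨p, hp, rfl⟩ := hp'
    obtain ⟨q, hq, rfl⟩ := hq'
    exact hdx p hp q hq
  · intro p' hp' q' hq'
    rw [Finset.mem_image] at hp' hq'
    obtain ⟨p, hp, rfl⟩ := hp'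
    obtain ⟨q, hq, rfl⟩ := hq'
    have := hdy q hq p hp
    show -p.2 - -q.2 ≤ 1
    linarith

/-- Part (A): a point set in the unit square containing a monotone chain of `m ≥ 3` points has
three points spanning a triangle of area at most `2 / (m - 2) ^ 2`. -/
theorem chain_bound (P : Finset (ℝ × ℝ))
    (hP : ∀ p ∈ P, 0 ≤ p.1 ∧ p.1 ≤ 1 ∧ 0 ≤ p.2 ∧ p.2 ≤ 1)
    (C : Finset (ℝ × ℝ)) (hCP : C ⊆ P)
    (hchain : (∀ p ∈ C, ∀ q ∈ C, 0 ≤ (p.1 - q.1) * (p.2 - q.2)) ∨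
      (∀ p ∈ C, ∀ q ∈ C, (p.1 - q.1) * (p.2 - q.2) ≤ 0))
    (hm : 3 ≤ C.card) :
    ∃ p ∈ P, ∃ q ∈ P, ∃ r ∈ P, p ≠ q ∧ p ≠ r ∧ q ≠ r ∧
      (1 / 2) * |(q.1 - p.1) * (r.2 - p.2) - (q.2 - p.2) * (r.1 - p.1)| ≤
        2 / ((C.card : ℝ) - 2) ^ 2 := by
  have hdx : ∀ p ∈ C, ∀ q ∈ C, p.1 - q.1 ≤ 1 := by
    intro p hp q hq
    have h1 := hP p (hCP hp)
    have h2 := hP q (hCP hq)
    linarith [h1.2.1, h2.1]
  have hdy : ∀ p ∈ C, ∀ q ∈ C, p.2 - q.2 ≤ 1 := by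
    intro p hp q hq
    have h1 := hP p (hCP hp)
    have h2 := hP q (hCP hq)
    linarith [h1.2.2.2, h2.2.2.1]
  have key : ∃ p ∈ C, ∃ q ∈ C, ∃ r ∈ C, p ≠ q ∧ p ≠ r ∧ q ≠ r ∧
      |(q.1 - p.1) * (r.2 - p.2) - (q.2 - p.2) * (r.1 - p.1)| ≤ 4 / ((C.card : ℝ) - 2) ^ 2 := by
    rcases hchain with h | h
    · exact incr_chain C h hdx hdy hm
    · exact decr_chain C h hdx hdy hm
  obtain ⟨p, hp, q, hq, r, hr, hpq, hpr, hqr, hle⟩ := key
  refine ⟨p, hCP hp, q, hCP hq, r, hCP hr, hpq, hpr, hqr, ?_⟩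
  have h2 : (2 : ℝ) / ((C.card : ℝ) - 2) ^ 2 = (1 / 2) * (4 / ((C.card : ℝ) - 2) ^ 2) := by ring
  rw [h2]
  exact mul_le_mul_of_nonneg_left hle (by norm_num)

/-- Heilbronn's triangle problem for point sets with a long monotone chain.

(A) If a finite set `P` in the unit square contains a monotone chain `C` of `m ≥ 3` points
(a set on which the two coordinates are either always ordered the same way, or always ordered
oppositely), then three distinct points of `P` span a triangle of area at most `2 / (m - 2)^2`.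

(B) If a finite set `P` of `n ≥ 4 k` points in the unit square is covered by `k` monotone chains,
then three distinct points of `P` span a triangle of area at most `8 k^2 / n^2`. -/
theorem result :
    (∀ (P C : Finset (ℝ × ℝ)), (∀ p ∈ P, 0 ≤ p.1 ∧ p.1 ≤ 1 ∧ 0 ≤ p.2 ∧ p.2 ≤ 1) → C ⊆ P →
      ((∀ p ∈ C, ∀ q ∈ C, 0 ≤ (p.1 - q.1) * (p.2 - q.2)) ∨
        (∀ p ∈ C, ∀ q ∈ C, (p.1 - q.1) * (p.2 - q.2) ≤ 0)) →
      3 ≤ C.card →
      ∃ p ∈ P, ∃ q ∈ P, ∃ r ∈ P, p ≠ q ∧ p ≠ r ∧ q ≠ r ∧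
        (1 / 2) * |(q.1 - p.1) * (r.2 - p.2) - (q.2 - p.2) * (r.1 - p.1)| ≤
          2 / ((C.card : ℝ) - 2) ^ 2) ∧
    (∀ (k : ℕ) (P : Finset (ℝ × ℝ)) (C : Fin k → Finset (ℝ × ℝ)),
      (∀ p ∈ P, 0 ≤ p.1 ∧ p.1 ≤ 1 ∧ 0 ≤ p.2 ∧ p.2 ≤ 1) →
      (∀ p ∈ P, ∃ j, p ∈ C j) →
      (∀ j, (∀ p ∈ C j, ∀ q ∈ C j, 0 ≤ (p.1 - q.1) * (p.2 - q.2)) ∨
        (∀ p ∈ C j, ∀ q ∈ C j, (p.1 - q.1) * (p.2 - q.2) ≤ 0)) →
      1 ≤ k → 4 * k ≤ P.card →
      ∃ p ∈ P, ∃ q ∈ P, ∃ r ∈ P, p ≠ q ∧ p ≠ r ∧ q ≠ r ∧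
        (1 / 2) * |(q.1 - p.1) * (r.2 - p.2) - (q.2 - p.2) * (r.1 - p.1)| ≤
          8 * (k : ℝ) ^ 2 / (P.card : ℝ) ^ 2) := by
  classical
  refine ⟨fun P C hP hCP hchain hm => chain_bound P hP C hCP hchain hm, ?_⟩
  intro k P C hP hcov hchain hk hn
  -- pigeonhole: some chain contains at least n / k points of P
  have hsub : P ⊆ Finset.univ.biUnion (fun j => P ∩ C j) := by
    intro p hp
    obtain ⟨j, hj⟩ := hcov p hp
    rw [Finset.mem_biUnion]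
    exact ⟨j, Finset.mem_univ j, Finset.mem_inter.mpr ⟨hp, hj⟩⟩
  have hcardle : P.card ≤ ∑ j : Fin k, (P ∩ C j).card :=
    le_trans (Finset.card_le_card hsub) Finset.card_biUnion_le
  have hex : ∃ j : Fin k, P.card ≤ k * (P ∩ C j).card := by
    by_contra hcon
    rw [not_exists] at hcon
    have hlt : ∀ j : Fin k, k * (P ∩ C j).card < P.card := fun j => not_le.mp (hcon j)
    have hne : (Finset.univ : Finset (Fin k)).Nonempty := ⟨⟨0, by omega⟩, Finset.mem_univ _⟩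
    have h1 : ∑ j : Fin k, k * (P ∩ C j).card < ∑ _j : Fin k, P.card :=
      Finset.sum_lt_sum_of_nonempty hne (fun j _ => hlt j)
    rw [← Finset.mul_sum, Finset.sum_const, Finset.card_univ, Fintype.card_fin, smul_eq_mul] at h1
    exact absurd (Nat.mul_le_mul_left k hcardle) (not_le.mpr h1)
  obtain ⟨j, hj⟩ := hex
  have hm4 : 4 ≤ (P ∩ C j).card := by
    by_contra hcon
    rw [not_le] at hcon
    have : k * (P ∩ C j).card ≤ k * 3 := Nat.mul_le_mul_left k (by omega)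
    omega
  have hchainj : (∀ p ∈ P ∩ C j, ∀ q ∈ P ∩ C j, 0 ≤ (p.1 - q.1) * (p.2 - q.2)) ∨
      (∀ p ∈ P ∩ C j, ∀ q ∈ P ∩ C j, (p.1 - q.1) * (p.2 - q.2) ≤ 0) := by
    rcases hchain j with h | h
    · exact Or.inl (fun p hp q hq => h p (Finset.mem_inter.mp hp).2 q (Finset.mem_inter.mp hq).2)
    · exact Or.inr (fun p hp q hq => h p (Finset.mem_inter.mp hp).2 q (Finset.mem_inter.mp hq).2)
  obtain ⟨p, hp, q, hq, r, hr, hpq, hpr, hqr, hle⟩ :=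
    chain_bound P hP (P ∩ C j) Finset.inter_subset_left hchainj (by omega)
  refine ⟨p, hp, q, hq, r, hr, hpq, hpr, hqr, le_trans hle ?_⟩
  -- arithmetic: m - 2 ≥ n / (2 k)
  have hkR : (1 : ℝ) ≤ k := by exact_mod_cast hk
  have hnR : (4 : ℝ) * k ≤ P.card := by exact_mod_cast hn
  have hjR : (P.card : ℝ) ≤ k * (P ∩ C j).card := by exact_mod_cast hj
  have hmR : (4 : ℝ) ≤ ((P ∩ C j).card : ℝ) := by exact_mod_cast hm4
  have hnpos : (0 : ℝ) < P.card := by linarith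
  have hkpos : (0 : ℝ) < k := by linarith
  have hkey : (P.card : ℝ) ≤ 2 * k * (((P ∩ C j).card : ℝ) - 2) := by nlinarith
  have hmpos : (0 : ℝ) < ((P ∩ C j).card : ℝ) - 2 := by linarith
  rw [div_le_div_iff₀ (pow_pos hmpos 2) (pow_pos hnpos 2)]
  have hsq : (P.card : ℝ) ^ 2 ≤ (2 * k * (((P ∩ C j).card : ℝ) - 2)) ^ 2 :=
    pow_le_pow_left₀ hnpos.le hkey 2
  nlinarith

end Vale.Agent.Results.P036.MonotoneChain
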