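import Mathlib
import Vale.Agent.Lib.P036.H65.Defs
import Vale.Agent.Lib.P036.H65.Path

namespace Vale.Agent.Results.P036.PathLength

open Vale.Agent.Lib.P036.H65

/-- Heilbronn-type bound from a short spanning path: if the `n ≥ 3` points of `P` are
`p 0, …, p (n - 1)` (without repetition) and the polygonal path through them in this order has
Euclidean length at most `ℓ`, then `P` contains a triangle of area at most
`ℓ ^ 2 / (2 (n - 2) ^ 2)`. -/
theorem result (P : Finset (ℝ × ℝ)) (n : ℕ) (hn : 3 ≤ n) (hcard : P.card = n)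
    (p : ℕ → ℝ × ℝ) (hP : P = (Finset.range n).image p) (ℓ : ℝ)
    (hlen : ∑ i ∈ Finset.range (n - 1), eDist (p i) (p (i + 1)) ≤ ℓ) :
    ∃ a ∈ P, ∃ b ∈ P, ∃ c ∈ P, a ≠ b ∧ b ≠ c ∧ a ≠ c ∧
      triArea a b c * (2 * ((n : ℝ) - 2) ^ 2) ≤ ℓ ^ 2 :=
  path_set P n hn hcard p hP ℓ hlen

end Vale.Agent.Results.P036.PathLength
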